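import Vale.Agent.P209.H687.Defs

set_option linter.all false

/-!
# P209, REM, row LA: the areas of the left chart
-/

namespace Vale.Agent.P209.H58.Rem

open Vale.Agent.P209 H684 H578 H721 H974 H686 H687
open Vale.Agent.P209.Strong hiding chi
open scoped ContDiff

theorem uph_norm {B : ℂ} (h : B ≠ 0) : ‖uph B‖ = 1 := by
  unfold uph
  rw [norm_mul, Complex.norm_real, norm_inv, norm_norm, mul_inv_cancel₀ (norm_ne_zero_iff.2 h)]

theorem conj_uph_norm {B : ℂ} (h : B ≠ 0) : ‖(starRingEnd ℂ) (uph B)‖ = 1 := by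
  rw [RCLike.norm_conj, uph_norm h]

theorem gau_ar0 {R : ℝ} {X : Fin 3 → ℂ} (h : X 2 ≠ 0) : ar (gau R X 0) = ar (X 0) :=
  ar_mul_of_norm_one' (conj_uph_norm h)

theorem gau_ar1 {R : ℝ} {X : Fin 3 → ℂ} (h : X 2 ≠ 0) : ar (gau R X 1) = ar (X 1) :=
  ar_mul_of_norm_one' (conj_uph_norm h)

theorem gau_ar2 {R : ℝ} {X : Fin 3 → ℂ} (h : X 2 ≠ 0)
    (h0 : 0 ≤ R - ar (X 0) - ar (X 1) - ar (X 2)) :
    ar (gau R X 2) = R - ar (X 0) - ar (X 1) - ar (X 2) :=
  (ar_mul_of_norm_one' (conj_uph_norm h)).trans (sqrt_real_ar h0)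

theorem toK_0 (R c : ℝ) (v : Fin 3 → ℂ) :
    toK R c v 0 = ((kap R c v : ℝ) : ℂ) + ((-(v 0).im : ℝ) : ℂ) * Complex.I := rfl
theorem toK_0_re (R c : ℝ) (v : Fin 3 → ℂ) : (toK R c v 0).re = kap R c v := by
  rw [toK_0, a1_re]
theorem toK_0_im (R c : ℝ) (v : Fin 3 → ℂ) : (toK R c v 0).im = -(v 0).im := by
  rw [toK_0, a1_im]
theorem toK_1 (R c : ℝ) (v : Fin 3 → ℂ) : toK R c v 1 = ee (-(v 0).im) * v 1 := rfl
theorem toK_2 (R c : ℝ) (v : Fin 3 → ℂ) : toK R c v 2 = v 2 := rfl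
theorem ar_toK_1 (R c : ℝ) (v : Fin 3 → ℂ) : ar (toK R c v 1) = ar (v 1) := by
  rw [toK_1, ar_mul_of_norm_one (ee_norm _)]

theorem uu0 (v : Fin 3 → ℂ) : uu v 0 = ar (v 1) := rfl
theorem uu1 (v : Fin 3 → ℂ) : uu v 1 = ar (v 2) := rfl

/-- the numbers of `Vm` -/
theorem Vm_num {R c m η : ℝ} (hH : Hyp R c m η) {v : Fin 3 → ℂ} (hv : uu v ∈ Vm R c m) :
    0 ≤ ar (v 1) ∧ 0 ≤ ar (v 2) ∧ ar (v 1) < c - m ∧ ar (v 1) + ar (v 2) < (R + c) / 3 - m ∧
      c - m < (R + c) / 3 := by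
  obtain ⟨h1, h2, h3, h4⟩ := hv
  rw [uu0] at h3 h4
  rw [uu1] at h4
  obtain ⟨k1, k2, k3, k4, k5⟩ := hH
  exact ⟨ar_nonneg _, ar_nonneg _, h3, h4, by linarith⟩

theorem norm_lt_1 {R c m η : ℝ} (D : Dat R c m η) (hH : Hyp R c m η) {v : Fin 3 → ℂ}
    (hv : uu v ∈ Vm R c m) : ‖v 1‖ < D.r := by
  obtain ⟨h1, h2, h3, h4, h5⟩ := Vm_num hH hv
  exact D.hr _ (by linarith)

theorem norm_lt_2 {R c m η : ℝ} (D : Dat R c m η) (hH : Hyp R c m η) {v : Fin 3 → ℂ}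
    (hv : uu v ∈ Vm R c m) : ‖v 2‖ < D.r := by
  obtain ⟨h1, h2, h3, h4, h5⟩ := Vm_num hH hv
  have := hH.1
  exact D.hr _ (by linarith)

/-- the areas of `EL` in the frame of `Q`: `a = ar V` -/
structure LAr (R c m η : ℝ) (D : Dat R c m η) (v : Fin 3 → ℂ) (a : ℝ) : Prop where
  a_gt : D.ε1 / 2 < a
  a_pos : 0 < a
  f1 : a - ar (EL c D.g2 D.g1 (toK R c v) 1) = kap R c v
  f2 : a + ar (EL c D.g2 D.g1 (toK R c v) 1) ≤ 2 * ar (v 2) + |kap R c v| + m / 100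
  f3 : ar (EL c D.g2 D.g1 (toK R c v) 2) - ar (EL c D.g2 D.g1 (toK R c v) 0) = a - c + ar (v 1)
  f4 : ar (EL c D.g2 D.g1 (toK R c v) 2) + ar (EL c D.g2 D.g1 (toK R c v) 0) ≤
    2 * ar (v 1) + |a - c + ar (v 1)| + D.ε1
  f6 : 0 < ar (EL c D.g2 D.g1 (toK R c v) 2)
  f7 : m / 20 ≤ kap R c v → a = ar (v 2) + kap R c v ∧
    ar (EL c D.g2 D.g1 (toK R c v) 1) = ar (v 2)

theorem exists_LAr {R c m η : ℝ} (D : Dat R c m η) (hH : Hyp R c m η) {v : Fin 3 → ℂ}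
    (hv : uu v ∈ Vm R c m) : ∃ a, LAr R c m η D v a ∧
      a = ar (D.g2 (toK R c v 0, toK R c v 2)).1 := by
  obtain ⟨h1, h2, h3, h4, h5⟩ := Vm_num hH hv
  obtain ⟨k1, k2, k3, k4, k5⟩ := hH
  have hn1 := norm_lt_1 D ⟨k1, k2, k3, k4, k5⟩ hv
  have hn2 := norm_lt_2 D ⟨k1, k2, k3, k4, k5⟩ hv
  have hε := D.hε1
  have hε' := D.hε1'
  set x : ℂ × ℂ := (toK R c v 0, toK R c v 2) with hx
  have hx1 : x.1.re = kap R c v := toK_0_re R c v
  have hx2 : x.2 = v 2 := rfl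
  have hxn : ‖x.2‖ < D.r := hn2
  set a : ℝ := ar (D.g2 x).1 with ha
  -- the first gate
  have hag : D.ε1 / 2 < a := by
    rcases le_total (kap R c v) (m / 40) with hk | hk
    · have e1 := D.og2.pos1 x hxn (D.hs2.one _ (by rw [hx1]; exact hk))
      have e2 := D.low2 (v 2) (by linarith)
      rw [hx2, ← ha] at e1
      linarith
    · have e1 := D.og2.plus x hxn (by rw [hx1]; exact hk)
      have e2 : a = ar (D.S2 x).2 + x.1.re := by
        rw [ha, e1]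
        exact ar_phiA_re_im (by have := ar_nonneg (D.S2 x).2; rw [hx1]; linarith)
      have e3 := ar_nonneg (D.S2 x).2
      rw [hx1] at e2
      linarith
  have ha0 : 0 < a := by linarith
  have hV : (D.g2 x).1 ≠ 0 := ar_pos.1 ha0
  have hcn : ‖(starRingEnd ℂ) (uph (D.g2 x).1)‖ = 1 := conj_uph_norm hV
  set y : ℂ × ℂ := (((a - c + ar (toK R c v 1) : ℝ) : ℂ),
    (starRingEnd ℂ) (uph (D.g2 x).1) * toK R c v 1) with hy
  have hy1 : y.1.re = a - c + ar (v 1) := by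
    rw [hy]
    simp only [Complex.ofReal_re]
    rw [ar_toK_1]
  have hy2 : ar y.2 = ar (v 1) := by
    rw [hy]
    exact (ar_mul_of_norm_one hcn).trans (ar_toK_1 R c v)
  have hyn : ‖y.2‖ < D.r := by
    rw [hy]
    show ‖(starRingEnd ℂ) (uph (D.g2 x).1) * toK R c v 1‖ < D.r
    rw [norm_mul, hcn, one_mul, toK_1, norm_mul, ee_norm, one_mul]
    exact hn1
  have hX0 : ar (EL c D.g2 D.g1 (toK R c v) 0) = ar (D.g1 y).2 := ar_mul_of_norm_one hcn
  have hX1 : EL c D.g2 D.g1 (toK R c v) 1 = (D.g2 x).2 := rfl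
  have hX2 : ar (EL c D.g2 D.g1 (toK R c v) 2) = ar (D.g1 y).1 :=
    ar_mul_of_norm_one (uph_norm hV)
  have g1d := D.og1.diff y hyn
  have g1s := D.og1.sum y hyn
  have g2d := D.og2.diff x hxn
  have g2s := D.og2.sum x hxn
  rw [hy1] at g1d g1s
  rw [hy2] at g1s
  rw [hx1] at g2d g2s
  rw [hx2] at g2s
  refine ⟨a, ⟨hag, ha0, ?_, ?_, ?_, ?_, ?_, ?_⟩, rfl⟩
  · rw [hX1]; exact g2d
  · rw [hX1]; exact g2s
  · rw [hX0, hX2]; exact g1d
  · rw [hX0, hX2]; exact g1s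
  · rw [hX2]
    rcases le_total (a - c + ar (v 1)) ((R - 2 * c) / 3 + m / 4) with hl | hl
    · have e1 := D.og1.pos1 y hyn (D.hs1.one _ (by rw [hy1]; exact hl))
      have e2 := ar_pos.2 (D.og1.tau_ne _ hyn)
      linarith
    · have e0 : m / 40 ≤ a - c + ar (v 1) := by linarith
      have e1 := D.og1.plus y hyn (by rw [hy1]; exact e0)
      have e2 : ar (D.g1 y).1 = ar (D.S1 y).2 + y.1.re := by
        rw [e1]
        exact ar_phiA_re_im (by have := ar_nonneg (D.S1 y).2; rw [hy1]; linarith)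
      have e3 := ar_nonneg (D.S1 y).2
      rw [hy1] at e2
      linarith
  · intro hk
    have e1 := D.og2.plus x hxn (by rw [hx1]; linarith)
    have e2 : D.S2 x = x := D.og2.susp.off x (D.hs2.zero _ (by rw [hx1]; exact hk))
    rw [e2] at e1
    refine ⟨?_, ?_⟩
    · rw [ha, e1]
      show ar (phiA _) = _
      rw [ar_phiA_re_im (by rw [hx2, hx1]; linarith), hx2, hx1]
    · rw [hX1, e1]
      exact ar_mul_of_norm_one (ee_norm _)

theorem Lam_ge {R c m η : ℝ} (hH : Hyp R c m η) (u : Fin 2 → ℝ) :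
    3 * u 0 + u 1 + m / 2 ≤ Lam c m u ∧
      3 * u 0 + u 1 + 2 * (u 0 + u 1 - c) + m / 2 ≤ Lam c m u := by
  obtain ⟨h1, h2⟩ := chi_nonneg_aux (d := m / 100) (t := u 0 + u 1 - c) (by linarith [hH.1])
  unfold Lam
  constructor <;> linarith

/-- the area of `Z_3` is positive, and the area of `Z_0` is smaller than `c` -/
theorem LAr.rest {R c m η : ℝ} {D : Dat R c m η} (hH : Hyp R c m η) {v : Fin 3 → ℂ}
    (hv : v ∈ DL R c m) {a : ℝ} (h : LAr R c m η D v a) :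
    ar (EL c D.g2 D.g1 (toK R c v) 0) + ar (EL c D.g2 D.g1 (toK R c v) 1) +
      ar (EL c D.g2 D.g1 (toK R c v) 2) < R ∧ ar (EL c D.g2 D.g1 (toK R c v) 0) < c := by
  obtain ⟨h1, h2, h3, h4, h5⟩ := Vm_num hH hv.1
  obtain ⟨-, hd1, hd2⟩ := hv
  obtain ⟨hL1, hL2⟩ := Lam_ge hH (uu v)
  obtain ⟨k1, k2, k3, k4, k5⟩ := hH
  have hε := D.hε1
  have hε' := D.hε1'
  obtain ⟨a1, a0, f1, f2, f3, f4, f6, -⟩ := h
  unfold Pm at hd1
  have hk : kap R c v = c - (R + c) / 2 - ar (v 1) - (v 0).re := rfl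
  rw [uu0, uu1] at hd1 hL1 hL2
  generalize ar (EL c D.g2 D.g1 (toK R c v) 0) = X0 at *
  generalize ar (EL c D.g2 D.g1 (toK R c v) 1) = X1 at *
  generalize ar (EL c D.g2 D.g1 (toK R c v) 2) = X2 at *
  generalize ar (v 1) = u1 at *
  generalize ar (v 2) = u2 at *
  generalize kap R c v = κ at *
  generalize (v 0).re = Q at *
  generalize Lam c m (uu v) = Λ at *
  rcases le_total 0 κ with hκ | hκ <;> rcases le_total 0 (a - c + u1) with hl | hl
  · rw [abs_of_nonneg hκ] at f2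
    rw [abs_of_nonneg hl] at f4
    constructor <;> linarith
  · rw [abs_of_nonneg hκ] at f2
    rw [abs_of_nonpos hl] at f4
    constructor <;> linarith
  · rw [abs_of_nonpos hκ] at f2
    rw [abs_of_nonneg hl] at f4
    constructor <;> linarith
  · rw [abs_of_nonpos hκ] at f2
    rw [abs_of_nonpos hl] at f4
    constructor <;> linarith

/-- **Row LA.** -/
theorem rowLA : RowLA := by
  intro R c m η D hH v hv
  obtain ⟨a, h, -⟩ := exists_LAr D hH hv.1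
  obtain ⟨hr1, hr2⟩ := h.rest hH hv
  have hX2 : EL c D.g2 D.g1 (toK R c v) 2 ≠ 0 := ar_pos.1 h.f6
  have e0 : ar (D.cL v 0) = ar (EL c D.g2 D.g1 (toK R c v) 0) := gau_ar0 (R := R) hX2
  have e1 : ar (D.cL v 1) = ar (EL c D.g2 D.g1 (toK R c v) 1) := gau_ar1 (R := R) hX2
  have e2 : ar (D.cL v 2) = R - ar (EL c D.g2 D.g1 (toK R c v) 0) -
      ar (EL c D.g2 D.g1 (toK R c v) 1) - ar (EL c D.g2 D.g1 (toK R c v) 2) :=
    gau_ar2 (R := R) hX2 (by linarith)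
  refine ⟨⟨hv.1, hr1⟩, ?_, ?_, ?_⟩
  · unfold Tgt
    rw [e0, e1, e2]
    have := h.f6
    constructor <;> linarith
  · intro hk
    obtain ⟨h1, h2, h3, h4, h5⟩ := Vm_num hH hv.1
    obtain ⟨-, hd1, hd2⟩ := hv
    obtain ⟨hL1, hL2⟩ := Lam_ge hH (uu v)
    obtain ⟨k1, k2, k3, k4, k5⟩ := hH
    have hε := D.hε1
    have hε' := D.hε1'
    obtain ⟨a1, a0, f1, f2, f3, f4, f6, -⟩ := h
    unfold lim qim
    rw [e0, e1, e2]
    have hk' : kap R c v = c - (R + c) / 2 - ar (v 1) - (v 0).re := rfl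
    rw [uu0, uu1] at hL1 hL2
    generalize ar (EL c D.g2 D.g1 (toK R c v) 0) = X0 at *
    generalize ar (EL c D.g2 D.g1 (toK R c v) 1) = X1 at *
    generalize ar (EL c D.g2 D.g1 (toK R c v) 2) = X2 at *
    generalize ar (v 1) = u1 at *
    generalize ar (v 2) = u2 at *
    generalize kap R c v = κ at *
    generalize (v 0).re = Q at *
    generalize Lam c m (uu v) = Λ at *
    rcases le_total 0 κ with hκ | hκ <;> rcases le_total 0 (a - c + u1) with hl | hl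
    · rw [abs_of_nonneg hκ] at f2
      rw [abs_of_nonneg hl] at f4
      constructor <;> linarith
    · rw [abs_of_nonneg hκ] at f2
      rw [abs_of_nonpos hl] at f4
      constructor <;> linarith
    · rw [abs_of_nonpos hκ] at f2
      rw [abs_of_nonneg hl] at f4
      constructor <;> linarith
    · rw [abs_of_nonpos hκ] at f2
      rw [abs_of_nonpos hl] at f4
      constructor <;> linarith
  · intro hk
    obtain ⟨h1, h2, h3, h4, h5⟩ := Vm_num hH hv.1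
    obtain ⟨-, hd1, hd2⟩ := hv
    obtain ⟨k1, k2, k3, k4, k5⟩ := hH
    have hε := D.hε1
    have hε' := D.hε1'
    obtain ⟨a1, a0, f1, f2, f3, f4, f6, f7⟩ := h
    obtain ⟨f8, f9⟩ := f7 hk
    have hk' : kap R c v = c - (R + c) / 2 - ar (v 1) - (v 0).re := rfl
    have hmin1 := min_le_left ((v 0).re + Pm R c (uu v) / 2) m
    have hmin2 := min_le_right ((v 0).re + Pm R c (uu v) / 2) m
    refine ⟨?_, ?_, ?_⟩
    · unfold lim
      rw [e0, e1, e2]
      linarith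
    · rw [e1]; exact f9
    · unfold qim
      rw [e1, e2]
      have hP : Pm R c (uu v) = 3 * R + c - 4 * ar (v 1) - 6 * ar (v 2) := rfl
      generalize ar (EL c D.g2 D.g1 (toK R c v) 0) = X0 at *
      generalize ar (EL c D.g2 D.g1 (toK R c v) 1) = X1 at *
      generalize ar (EL c D.g2 D.g1 (toK R c v) 2) = X2 at *
      generalize ar (v 1) = u1 at *
      generalize ar (v 2) = u2 at *
      generalize kap R c v = κ at *
      generalize (v 0).re = Q at *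
      generalize Pm R c (uu v) = P at *
      generalize min (Q + P / 2) m = M at *
      rcases le_total 0 (a - c + u1) with hl | hl
      · rw [abs_of_nonneg hl] at f4
        linarith
      · rw [abs_of_nonpos hl] at f4
        linarith

/-- 974's form of the last clause -/
theorem rowLA_LQ {R c m η : ℝ} (D : Dat R c m η) (hH : Hyp R c m η) {v : Fin 3 → ℂ}
    (hv : v ∈ DL R c m) (hk : m / 20 ≤ kap R c v)
    (hl : lim R (D.cL v) ≤ (R - 2 * c) / 3 + 3 * m / 4) :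
    m ≤ (v 0).re + Pm R c (uu v) / 2 ∧ qim (D.cL v) ≤ -(99 * m / 200) := by
  obtain ⟨-, -, -, h3⟩ := rowLA R c m η D hH v hv
  obtain ⟨e1, -, e3⟩ := h3 hk
  obtain ⟨h1, h2, h3, h4, h5⟩ := Vm_num hH hv.1
  obtain ⟨k1, k2, k3, k4, k5⟩ := hH
  rw [e1] at hl
  have hP : Pm R c (uu v) = 3 * R + c - 4 * ar (v 1) - 6 * ar (v 2) := rfl
  have hk' : kap R c v = c - (R + c) / 2 - ar (v 1) - (v 0).re := rfl
  have hp : m ≤ (v 0).re + Pm R c (uu v) / 2 := by rw [hP]; linarith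
  rw [min_eq_right hp] at e3
  exact ⟨hp, by linarith⟩

end Vale.Agent.P209.H58.Rem
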