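import Vale.Agent.P209.H684.Gate2
import Vale.Agent.P209.H974.Wrap

set_option linter.all false

/-!
# P209, REM: the chart around the gate `x₁ = x₃`

Source `w = (P + i θ, z₁, z₂)`, target `(Z₀, Z₁, Z₃)` in the gauge `Z₂ > 0`.
-/

namespace Vale.Agent.P209.H58.Rem

open Vale.Agent.P209 Vale.Agent.P209.Strong Vale.Agent.P209.H684
open scoped ContDiff

theorem omega3 (v v' : Fin 3 → ℂ) :
    omega v v' = om1 (v 0) (v' 0) + om1 (v 1) (v' 1) + om1 (v 2) (v' 2) := by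
  rw [show omega v v' = ∑ j, om1 (v j) (v' j) from rfl, Fin.sum_univ_three]

theorem om1_neg (a b : ℂ) : om1 (-a) (-b) = om1 a b := by
  unfold om1
  rw [Complex.neg_re, Complex.neg_im, Complex.neg_re, Complex.neg_im]
  ring

theorem fderiv_slot {E : Type*} [NormedAddCommGroup E] [NormedSpace ℝ E] {f : E → (Fin 3 → ℂ)}
    {x : E} (hf : DifferentiableAt ℝ f x) (v : E) (j : Fin 3) :
    fderiv ℝ f x v j = fderiv ℝ (fun y => f y j) x v := by
  have h1 := (hasFDerivAt_pi'.1 hf.hasFDerivAt j).fderiv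
  rw [h1]
  rfl

/-- the chart around the gate `x₁ = x₃`: slots `0, 1, 2` are `Z₀, Z₁, Z₃` -/
noncomputable def G1c (G : ℂ × ℂ → ℂ × ℂ) (w : Fin 3 → ℂ) : Fin 3 → ℂ :=
  ![w 1, (G (-w 0, w 2)).2, (G (-w 0, w 2)).1]

theorem G1c_0 (G : ℂ × ℂ → ℂ × ℂ) (w : Fin 3 → ℂ) : G1c G w 0 = w 1 := rfl
theorem G1c_1 (G : ℂ × ℂ → ℂ × ℂ) (w : Fin 3 → ℂ) : G1c G w 1 = (G (-w 0, w 2)).2 := rfl
theorem G1c_2 (G : ℂ × ℂ → ℂ × ℂ) (w : Fin 3 → ℂ) : G1c G w 2 = (G (-w 0, w 2)).1 := rfl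

section

variable {r δ ε : ℝ} {G : ℂ × ℂ → ℂ × ℂ} (hG : GateSpec r δ ε G)

/-- the pair of slots used by the gate -/
noncomputable def prL : (Fin 3 → ℂ) →L[ℝ] ℂ × ℂ :=
  (-ContinuousLinearMap.proj 0).prod (ContinuousLinearMap.proj 2)

theorem prL_apply (w : Fin 3 → ℂ) : prL w = (-w 0, w 2) := rfl

include hG in
theorem G1c_contDiffAt {w : Fin 3 → ℂ} (hw : ‖w 2‖ < r) : ContDiffAt ℝ ∞ (G1c G) w := by
  have h1 : ContDiffAt ℝ ∞ (fun w : Fin 3 → ℂ => G (prL w)) w :=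
    ContDiffAt.comp (g := G) w (hG.smooth (prL w) hw) prL.contDiff.contDiffAt
  rw [contDiffAt_pi]
  intro j
  fin_cases j
  · exact (contDiff_apply ℝ ℂ (1 : Fin 3)).contDiffAt
  · exact contDiffAt_snd.comp w h1
  · exact contDiffAt_fst.comp w h1

include hG in
theorem G1c_sympl {w : Fin 3 → ℂ} (hw : ‖w 2‖ < r) (v v' : Fin 3 → ℂ) :
    omega (fderiv ℝ (G1c G) w v) (fderiv ℝ (G1c G) w v') = omega v v' := by
  have hd := (G1c_contDiffAt hG hw).differentiableAt (by simp)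
  have hGd : DifferentiableAt ℝ G (prL w) := (hG.smooth (prL w) hw).differentiableAt (by simp)
  have h1 : HasFDerivAt (fun w : Fin 3 → ℂ => G (prL w)) ((fderiv ℝ G (prL w)).comp prL) w :=
    hGd.hasFDerivAt.comp w prL.hasFDerivAt
  have e0 : ∀ v, fderiv ℝ (G1c G) w v 0 = v 1 := by
    intro v
    rw [fderiv_slot hd]
    have : HasFDerivAt (fun y : Fin 3 → ℂ => G1c G y 0)
      (ContinuousLinearMap.proj (R := ℝ) (φ := fun _ : Fin 3 => ℂ) 1) w :=
      (ContinuousLinearMap.proj (R := ℝ) (φ := fun _ : Fin 3 => ℂ) 1).hasFDerivAt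
    rw [this.fderiv]
    rfl
  have e1 : ∀ v, fderiv ℝ (G1c G) w v 1 = (fderiv ℝ G (prL w) (prL v)).2 := by
    intro v
    rw [fderiv_slot hd]
    have : HasFDerivAt (fun y : Fin 3 → ℂ => G1c G y 1)
      ((ContinuousLinearMap.snd ℝ ℂ ℂ).comp ((fderiv ℝ G (prL w)).comp prL)) w :=
      (ContinuousLinearMap.snd ℝ ℂ ℂ).hasFDerivAt.comp w h1
    rw [this.fderiv]
    rfl
  have e2 : ∀ v, fderiv ℝ (G1c G) w v 2 = (fderiv ℝ G (prL w) (prL v)).1 := by
    intro v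
    rw [fderiv_slot hd]
    have : HasFDerivAt (fun y : Fin 3 → ℂ => G1c G y 2)
      ((ContinuousLinearMap.fst ℝ ℂ ℂ).comp ((fderiv ℝ G (prL w)).comp prL)) w :=
      (ContinuousLinearMap.fst ℝ ℂ ℂ).hasFDerivAt.comp w h1
    rw [this.fderiv]
    rfl
  have h2 := hG.sympl (prL w) hw (prL v) (prL v')
  unfold om2 at h2
  rw [omega3, omega3, e0, e0, e1, e1, e2, e2]
  have h3 : om1 (prL v).1 (prL v').1 = om1 (v 0) (v' 0) := om1_neg _ _
  have h4 : om1 (prL v).2 (prL v').2 = om1 (v 2) (v' 2) := rfl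
  linarith

include hG in
/-- the sum of the three areas -/
theorem G1c_sum {w : Fin 3 → ℂ} (hw : ‖w 2‖ < r) :
    ∑ j, ar (G1c G w j) ≤ ar (w 1) + 2 * ar (w 2) + |(w 0).re| + ε := by
  rw [Fin.sum_univ_three, G1c_0, G1c_1, G1c_2]
  have h1 := hG.sum (-w 0, w 2) hw
  simp only [Complex.neg_re, abs_neg] at h1
  linarith

include hG in
theorem G1c_diff {w : Fin 3 → ℂ} (hw : ‖w 2‖ < r) :
    ar (G1c G w 2) - ar (G1c G w 1) = -(w 0).re := by
  rw [G1c_1, G1c_2]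
  have h1 := hG.diff (-w 0, w 2) hw
  simpa using h1

include hG in
theorem G1c_inj {w w' : Fin 3 → ℂ} (hw : ‖w 2‖ < r) (hw' : ‖w' 2‖ < r) (h : G1c G w = G1c G w') :
    ∃ l : ℤ, w' = H974.sft l w := by
  have h0 : w 1 = w' 1 := congrFun h 0
  have h1 : (G (-w 0, w 2)).2 = (G (-w' 0, w' 2)).2 := congrFun h 1
  have h2 : (G (-w 0, w 2)).1 = (G (-w' 0, w' 2)).1 := congrFun h 2
  obtain ⟨l, hl⟩ := hG.inj (-w 0, w 2) (-w' 0, w' 2) hw hw' (Prod.ext h2 h1)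
  have h3 : -w' 0 = -w 0 + (l : ℂ) * Complex.I := congrArg Prod.fst hl
  have h4 : w' 2 = w 2 := congrArg Prod.snd hl
  refine ⟨-l, funext fun j => ?_⟩
  refine Fin.cases ?_ (fun a => ?_) j
  · rw [H974.sft_zero_slot]
    push_cast
    linear_combination -h3
  · rw [H974.sft_succ]
    fin_cases a
    · exact h0.symm
    · exact h4

include hG in
/-- the explicit form on the side `P ≤ -δ` (the `x₁`-side) -/
theorem G1c_left {w : Fin 3 → ℂ} (hw : ‖w 2‖ < r) (h : (w 0).re ≤ -δ) :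
    G1c G w = ![w 1, ee (w 0).im * w 2,
      phiA (((ar (w 2) - (w 0).re : ℝ) : ℂ) + ((-(w 0).im : ℝ) : ℂ) * Complex.I)] := by
  have h1 := hG.plus (-w 0, w 2) hw (by rw [Complex.neg_re]; linarith)
  unfold G1c
  rw [h1]
  simp only [Complex.neg_re, Complex.neg_im, neg_neg]
  rw [show ar (w 2) + -(w 0).re = ar (w 2) - (w 0).re by ring]

include hG in
/-- the explicit form on the side `δ ≤ P` (the `x₃`-side) -/
theorem G1c_right {w : Fin 3 → ℂ} (hw : ‖w 2‖ < r) (h : δ ≤ (w 0).re) :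
    G1c G w = ![w 1,
      phiA (((ar (w 2) + (w 0).re : ℝ) : ℂ) + (((w 0).im : ℝ) : ℂ) * Complex.I),
      ee (-(w 0).im) * w 2] := by
  have h1 := hG.minus (-w 0, w 2) hw (by rw [Complex.neg_re]; linarith)
  unfold G1c
  rw [h1]
  simp only [Complex.neg_re, Complex.neg_im, neg_neg]
  rw [show ar (w 2) - -(w 0).re = ar (w 2) + (w 0).re by ring]

end

/-- the model mirror -/
noncomputable def iota (w : Fin 3 → ℂ) : Fin 3 → ℂ := ![-w 0, w 1, w 2]

/-- the target mirror: the exchange of `Z₁` and `Z₃` -/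
def swp (z : Fin 3 → ℂ) : Fin 3 → ℂ := ![z 0, z 2, z 1]

theorem swp_swp (z : Fin 3 → ℂ) : swp (swp z) = z := by
  funext j; fin_cases j <;> rfl

theorem iota_iota (w : Fin 3 → ℂ) : iota (iota w) = w := by
  funext j; fin_cases j
  · exact neg_neg (w 0)
  · rfl
  · rfl

end Vale.Agent.P209.H58.Rem
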